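/-!
# Row 271 (Fujita freeness, S0413): blueprint (owner helper27)

`Defs.lean` holds every interface (FROZEN: DM helper27 before changing it), `Main.lean` the assembly.
Each block lives in `R271/<block>/`; its `Main.lean` states the block theorem(s).  Blocks are
independent: hypotheses from other blocks are passed as arguments (`HB`, `GB`, `AlB`, ...).

## H  (Hoermander, mean value, Montel on a Riemann domain `D : Dom n M`)
Calculus: `D.ch y` equals `p` as a function; near `y` all charts have the same inverse, so `D.d f`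
is locally `fderiv (f ∘ e.symm) ∘ p` for any chart `e` with `e = p` on the source.  Put
`∂_j f = (d f e_j - i d f (i e_j))/2`, `∂̄_j f = db f e_j`; `levi φ ξ = ∑ φ_{j k̄} ξ_j conj ξ_k`.
* H1 IBP: `∫ d f · ξ dμ = 0` for `f` smooth (or C¹) with compact support: cover the support by
  finitely many chart balls with bumps `β_i = 1` near, telescope `f = ∑ β_i ∏_{l<i} (1-β_l) f`, use
  `hμ` and `integral_fderiv_eq_zero`-type lemmas on `E n`.
* H2 Bochner: `δ_j = -∂_j + Φ_j` is the adjoint of `∂̄_j` in `L²(e^{-Φ})` on `C_c^∞`; for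
  `α = (α_j)` in `C_c^∞`: `‖∑ δ_j α_j‖² + ∑_{j<k} ‖∂̄_j α_k - ∂̄_k α_j‖² = ∑ ‖∂̄_j α_k‖² + ∫ levi Φ α`.
* H3 estimate without closed operators.  Fix `s`.  Only test forms are needed: for `ψ ∈ C_c^∞` put
  `α = ∂̄ψ` (closed!), `□ψ = ∑ δ_j ∂̄_j ψ`.  `|⟨u, □ψ⟩| = |⟨∂̄u, α⟩| ≤ (∫ h e^{-Φ})^{1/2} (∫ levi Φ α e^{-Φ})^{1/2}
  ≤ (∫ h e^{-Φ})^{1/2} ‖□ψ‖`.  Split `u = v + g` in `L²`, `v ∈ closure □(C_c^∞)`, `g ⊥ □(C_c^∞)`; then
  `‖v‖² ≤ ∫ h e^{-Φ}`.  It remains to see that `g` is holomorphic, which needs completeness: twist.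
  Use `□ψ = ∑ δ_j (e^{-η} ∂̄_j ψ)` with `η = b(ρ) log (1 + |∂ρ|²)` (`b = 0` on `ρ ≤ s`, `1` on
  `ρ ≥ s+1`) and the weight `Φ̃ = Φ + χ(ρ)`, `χ` convex increasing, `0` on `ρ ≤ s - 1`... with
  `levi χ(ρ) ≥` the error terms `|∂η|²` (as in Hoermander Lemma 4.2.1/4.4.1, three weights), or any
  other route (e.g. work on the relatively compact `{ρ < r}` with weights `Φ - N log (r - ρ)` and
  Caccioppoli cut-offs).  `g ⊥` means `∑ ∂_j-adjoint (a ∂̄_j g) = 0` weakly, `a > 0` smooth: `g ∈ H¹_loc` by
  mollifying in charts (commutator `[a, mollifier]`, Friedrichs), then test with `β(ρ - ν)² g`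
  (Caccioppoli; `e^{-η} |∂ρ|² ≤ 1`) to get `∂̄ g = 0` weakly, hence a.e. equal to a holomorphic function
  (mollify with a polyradial kernel; mollified functions are holomorphic and converge locally
  uniformly by the mean value inequality).  Finally `s → ∞` by Montel + Fatou.
  The H owner may replace H3 by any correct proof (e.g. the classical one with `T*`, density lemma).
* H4 `StMV`, `StMon`: Cauchy / mean value on polydiscs in a chart (iterate the one variable
  sub-mean value for `|F|²`, Fubini), Arzela-Ascoli or ultrafilters + diagonal sequence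
  (`M` is second countable and locally compact); see also `Lib/RMT/Montel`, `R101` (Wirtinger), `R80`
  (mollifiers, weak derivatives), `R264` (SCV).

## G  (from `HB`; `S : Aff n M A`, `Wt = 1 + ∑ |w i|²`, `ρ = log Wt` is a SPsh exhaustion)
* `StLP`: explicit Levi form computations: for holomorphic `f_i`, `log (ε + ∑ |f_i|²)` is psh;
  `log (e^φ + e^ψ)` is psh; convex increasing `χ ∘ φ` is psh.  `∫ Wt^{-K} < ∞` for `K` large (`fib`).
* GZ lemma (Guan-Zhou with loss `t + 1`): `g₀` LP, `g` LP, `Sing (g₀ g) y`-type hypothesis as needed,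
  `F₀` holomorphic.  With `ψ_ν ↓ log g`, `Θ(s) = s + θ(s)/(t+1)`, `θ` convex increasing, `θ(s) = s` for `s ≥ -t`,
  constant for `s ≤ -t-1`, `θ'' ≥ c χ'²` on `[-t-1, -t]`; weight `Φ = log g₀,ν + Θ(ψ_ν)`, `u = χ(ψ_ν + t) F₀`
  (`χ = 1` for `s ≤ -1`, `0` for `s ≥ 0`), `|∂̄u ξ|² ≤ C (t+1) |F₀|² 1_{-t-1<ψ<-t} levi Φ ξ`.  Hoermander gives
  `F_ν` with `∫ |u - F_ν|² e^{-Φ} ≤ C (t+1) e^{t+2} ∫_{g < e^{-t}} |F₀|²/g₀`.  If `1/(g₀ g)` is not integrable at `y`
  then `(u - F_ν)(y) → 0` (`StMV` Lipschitz bound + monotone convergence), so in the limit (Montel)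
  there is `F` holomorphic, `F y = F₀ y`, `∫ |F|²/(g₀ (1+g)²) ≤ C (t+1) e^t ∫_{g<e^{-t}} |F₀|²/g₀`.
* localisation: `g₀ = Wt^{K₀} (1 + |w - w(y₀)|²/r²)^{K t}` is `≤ C e^{δ t}` on a tiny neighbourhood and makes
  the integral outside `U` at most `C e^{-K' t}`.  `StVol` = GZ with `F₀ = 1` and `StMV` from below.
* `StRate`: (→) Chebyshev, (←) `StVol`.  `StLim`: `StRate`, `StVol`, reverse Fatou on a finite
  measure neighbourhood.  `StCo`: polydisc volume.
* `StSum`: GZ twice.  `g_b = (∑_{b i>0} h_i^{1/b_i})^{β+δ}`, `g̃ = (∑_{a i > 0} (e^{b_i t} h_i)^{1/a_i})^{α+δ}` (still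
  singular at `y`: it is `≤ C_t g_a`).  First GZ with `g_b` at level `(β+δ)t`: lower bound for every holomorphic `F` with
  `F y = 1` of `∫ |F|²/(g₀ (1 + e^{(β+δ)t} g_b)^K)`: apply GZ with `F₀ = F`.  Second GZ with weight
  `g₀ (1 + e^{(β+δ)t} g_b)^K`, `g = g̃`, `F₀ = 1`; on `{g̃ < e^{-(α+δ)t}}` the weight kills the part where
  `g_b > e^{-(β+δ)(1-δ) t}`.  (`Mod` controls `(1 + g̃)²` through a power of `Wt`.)
* `StZar`: Hoermander with weight `g_ν (|w - w y|² + 1/ν)^n Wt^K`, `u` a cut-off near `y`; Montel, Fatou, `alg`.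
  `StNad`: weight `φ_ν + φ`, `u` a cut-off near `x` with `supp dχ` away from `x`; Montel, Fatou.

## Al  (five independent leaves)
* `StTay`: `D/𝔪^a ≅ ℂ[X]/(X - y)^a` by formal étaleness (lift `ℂ[X] → ℂ[[X]]/𝔪^a`, or
  `Algebra.FormallySmooth.exists_lift`/adic completeness of `MvPowerSeries`), Krull intersection.
* `StGen`: primitive element `U` of `Frac D` over `ℂ(ζ)`, clear denominators: `D_h = ℂ[ζ][U]_h` standard étale;
  or Mathlib's étale locus (`Algebra.etaleLocus`, open, contains the generic point).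
* `StDens`: Noether normalisation `ℂ[X] ⊆ D`; for finitely many generators use one generic linear form /
  min polys + lying over + going down: the map `AlgHom D ℂ → ℂ^d` is open (roots depend continuously:
  for `a ∈ D` with min poly `Q_a` over `ℂ[X]`, every root of `Q_a(v, ·)` is `y a` for some `y` over `v`); choose `a`
  separating the fibre through `x`; avoid the zero set of the norm of `h`.
* `StBM`: `(P + [0,1]^d) + (Q + [0,1]^d) ⊆ C + [0,1]^d`, continuous Brunn-Minkowski (from `Lib/PL`
  by scaling, or `Lib/BM`, or Hadwiger-Ohmann for unions of boxes).  * `StDeg`: sort by degree,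
  `#{deg ≤ s} = C(s+d,d) ≤ (s+d)^d/d!`, Bernoulli, `∑ i^{1/d} ≥ ∫`.

## St  (helper27; see `St/Plan.lean`)

## T0  (assembly)
`κ = c k k'`; hats are divisions by `lam^degree` (`s / lam^l ∈ A` for `s ∈ R l`; `t 0 / lam^k`, `τ/lam^κ` are units of
`A`).  `G_L = (∑ |t̂ i|²)^{1/k}`, `G = G_L^κ / |τ̂|²`.  `bound`: for `s ∈ R l`, `|ŝ|² ≤ C G_L^l`: write
`s r_i = ∑_j P_ij(t) r_j` (`fin`), at a point pick `i` maximising `|r̂_i| / G_L^{dg i/2}` (nonzero since `1` is in the span).
`StSt` gives `g, t`; `StNad` with `φ = t log |τ̂|² + (m - κ t) log G_L` (`log G_L = (log |t̂ 0|² + log (1+|z|²))/k`),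
`Γ = C G_L^m`; `alg` gives `f ∈ A`; the point of `M` over `g.x` comes from `ev_bij`; `StT1` applied to
`φ = ŝ f / (t̂ 0)^c` gives `TrProp`.

## T1  `M = A →ₐ[ℂ] ℂ` (or `{(z, U, v) | Q = 0, v g = 1}`) with the topology of pointwise convergence.
`U` is integral over `ℂ[z]` (`fin`, `U_mem`), `A = ℂ[z][X]/(Q) [1/g]` standard étale (`sep`), `w = (z, U, g⁻¹)`.
Local homeomorphism + holomorphy by the implicit function theorem; measure: countably many charts,
disjointify, pull back `volume` (or `μ = ∑` of `comap`s).  Trace: off the hypersurface `H = {disc · N(g) = 0}` the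
fibre has exactly `deg Q` points and `Tr φ (v) = ∑_{y over v} φ y`; for holomorphic `F` the fibre sums
`∑ F U^j` are holomorphic off `H` and locally `L²` after multiplying by a power of `N(g)` (for `alg`), so they extend
(multiply by the polynomial `h` defining `H`: `h·f` extends continuously by the mean value bound, or use
slices: a holomorphic `L²` function on a punctured disc extends), have polynomial `L²` growth, hence are polynomials
(Cauchy estimates / Taylor coefficients are orthogonal on tori; `∫ |v^γ|² (1+|v|²)^{-c} = ∞` if `|γ| + n ≥ c`).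
Then `F · Q'(U) · N(g)^M = ∑ P_j U^j` (Lagrange interpolation: dual basis of a monogenic extension) off `H`, so everywhere
by density; `Q'(U)` is a unit, and `N(g)^M F ∈ A` with `F` holomorphic: use instead powers of `g` itself
(`|g⁻¹|² ≤ Wt`, so `|F g^M|²` has weight `(1+|z|²)^{K'}`; `U` is bounded by a power of `1+|z|²`).

## T2  For a prime `𝔭` of `A` let `h(l)` = dimension of the image of `R l / lam^l` in `A/𝔭`; `hf F 𝔭 j = h(j κ)`.
`dm 𝔭 = trdeg (A/𝔭)`.  Graded Noether normalisation of the image of `ℂ[t]`: linear forms `y_0..y_d` in `t`,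
algebraically independent, everything finite over `ℂ[y]`; `ρ_k` = rank of `⊕_j` image `R (j k)`; sandwich between free modules
gives `h(j k) / j^d → ρ_k / d!`.  Same for `t'`: `ρ_k k'^d = ρ_k' k^d`, coprime, so `ρ_k ≥ k^d`.  Uniformity: `V_j` = span over
`ℂ(y/y_0)` of the image of `R (j k)/y_0^j` increases strictly until it is everything once `j ≥ max dg`, hence `k^d`
independent elements in degree `J = max dg + k^n`, so `h(j k) ≥ k^d C(j - J + d, d)`.
`der`: `∂_i` extends to `A` (étale; `δ U = -Q_i(U)/Q'(U)`); `f = υ^{-j} ∑ P_i(z) ρ_i`, `υ = τ/t 0^{c k'}`, `deg P_i ≤ c k' j`.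

## U  `ℂ[[X]]` is factorial (induction: `MvPowerSeries.finSuccEquiv`, Weierstrass preparation/division in Mathlib,
a linear or `X_i ↦ X_i + X_0^{N_i}` change of variables; or a direct proof), `D_𝔪 → ℂ[[X]]` (`StTay`) is faithfully flat or at least
"pure" (`I ℂ[[X]] ∩ D_𝔪 = I` by Krull and `D_𝔪/𝔪^a ≅ ℂ[[X]]/𝔪^a`).  For `a, b` the ideal `(a : b)` extends to a principal
ideal, and an ideal with principal extension is principal (number of generators `dim I/𝔪I`; needs flatness =
completion of a Noetherian local ring, in Mathlib `AdicCompletion.flat_of_isNoetherian`); a Noetherian domain where all `(a : b)` are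
principal is a GCD domain, hence factorial.  Alternative: any proof that regular local rings are factorial.

## S1  Specialise to a closed point `x`.  `IsAmple` + quasi-compactness: finitely many `f_i`, affine `U_i`; powers
give a common degree `k₀`.  `C i` = image of `Γ(X, U_i)` in the function field.  Smooth of relative dimension `n`: locally
étale over `ℂ[X_1..X_n]` (`IsSmoothAt.exists_isStandardEtale_mvPolynomial`, `IsStandardSmoothOfRelativeDimension`), so stalks at
closed points are factorial (`StUFD`), all stalks are localisations of these; codimension one stalks are DVRs;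
Hartogs in each factorial stalk gives `mem_C`; `cartier`: local equations of `L` at closed points;
`val`: valuative criterion of properness; `frame`: the `dX_i`; independence of the choice is `IsCanonicalDivisor`.

## S2  `R l = {f | f = 0 ∨ ∀ z, 0 ≤ ord z f + l L z}`.  `f ∈ C i → f u_i^j ∈ R (j k₀)` (`fin_supp`).  Family `v` in `R k`: `u_i^j`, generators
of `C i` times `u_i^j`, `y` times `u_0^j`.  `⊕ R l T^l ⊆ K[T]` is integral over `ℂ[v T^k]` (valuative criterion with `val`; for a
valuation ring `V` of `K(T)`: `(s T^l)^k = (s^k/v_i^l)(v_i T^k)^l`), hence finite (Noether normalisation + finiteness of integral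
closure in characteristic zero).  Graded Noether normalisation keeping étaleness at `x`: arrange `v_j / v_0 ∈ 𝔪_x²` for `j > n`, and
replace `v_i` by `v_i - c_i v_M`.  `t'_{i,a} = h_a u_i^j`, `k' = 1 + j k₀` coprime to `k` (`cartier`, `val`).  `C' = {f | f t_0^j ∈ R (j k)}` is finite over
`ℂ[z]`, unramified at `x`; pick `U ∈ C'`, `U(x) = 1`, vanishing in the other local factors of the fibre; Nakayama gives `g₀` with
`C'[1/g₀] = ℂ[z,U][1/g₀]`; `g = g₀^N Q'(U) t'_0^k/t_0^{k'}`, `τ = g t_0^{c k'}`.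

## S3  `f' = f lam^m / coef(dz)`.  At `ζ`: some `t_i` does not vanish (`fin`, `cover`), `C'_i = {f | f t_i^j ∈ R (j k)}` is normal, finite over `B = ℂ[t/t_i]`,
`O ζ` is its localisation at the centre `𝔮` (`loc`), `𝔮 ∩ B = (g)` (going down, height one).  Take `s₀ ∈ R l₀` not vanishing at `ζ`, `l₀ + m = c₀ k` (powers of some
`t'_j`); `φ = f lam^m s₀ t_i^{-c₀} (t_i/t_0)^{n+1}` has `Tr (φ C'_i) ⊆ B` by `TrProp`; tame different: `ord φ ≥ -(e-1)`, `e = ord ζ g`
(`not_dvd_differentIdeal_of_intTrace_not_mem`, or by hand: `x ≡ ` approximations and `Tr` of `φ g` mod `g`); Jacobian: `dz^{(i)} = unit · dg ∧ ...`, so its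
determinant in a frame has order `≥ e - 1`; `dz = ± (t_i/t_0)^{n+1} dz^{(i)}`.  At `ζ` through `x`, `dz` is itself a frame (`A = ℂ[z,U,1/g]`, `sep`).
-/
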