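import Crest.Agent.R271.H.Main
import Crest.Agent.R271.G.Main
import Crest.Agent.R271.Al.Main
import Crest.Agent.R271.St.Main
import Crest.Agent.R271.T0.Main
import Crest.Agent.R271.T1.Main
import Crest.Agent.R271.T2.Main
import Crest.Agent.R271.U.Main
import Crest.Agent.R271.S1.Main
import Crest.Agent.R271.S2.Main
import Crest.Agent.R271.S3.Main

/-! # Row 271: Fujita freeness, assembly -/

set_option autoImplicit false

namespace Crest.Agent.R271

theorem stV : StV := fun n K _ _ v m hn hm => by
  obtain ⟨g, hg⟩ := stS2 n K v hn
  exact stS3 n K v g m hn hg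
    (stT (gb hb) (stSt (gb hb) alb) (stT1 hb) stT2 n K g m hn hm)

theorem stMain : StMain := stMain_of (stUFD stTay) stV

end Crest.Agent.R271
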